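import Vale.Agent.P073.Spec.Plate
import Vale.Agent.P073.Gauge.Cells110
import Vale.Agent.P073.GB3.Levels2

/-!
# P073, block PLATE: iteration of `SpecPlate` over the plates
-/

open Set Metric Topology MeasureTheory Filter
open scoped ENNReal

namespace P073.Plate

open Vale.Agent.P073.St (V)
open Vale.Agent.P073.SQ (ev)
open Vale.Agent.P073.AB
open P073.GB73 (Cx3 Prot)
open P073.Net (dyc dyo)
open P073.Gauge (gam dvar)
open P073.Gauge.C110

namespace H107

theorem prel_mono (v : V) (s : Idx × Fin 3) {δ δ' : ℝ} (h : δ' ≤ δ) : prel v s δ ⊆ prel v s δ' := by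
  intro x hx
  refine ⟨hx.1, fun i hi => ?_⟩
  have := hx.2 i hi
  constructor <;> linarith [this.1, this.2]

theorem pbox_subset_prel (v : V) (s : Idx × Fin 3) {δ δ' : ℝ} (h : δ' < δ) :
    pbox v s δ 0 ⊆ prel v s δ' := by
  intro x hx
  refine ⟨?_, fun i hi => ?_⟩
  · have := abs_nonpos_iff.1 hx.1
    linarith
  · have := hx.2 i hi
    constructor <;> linarith [this.1, this.2]

theorem prel_subset_pbox (v : V) (s : Idx × Fin 3) {δ : ℝ} : prel v s δ ⊆ pbox v s δ 0 := by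
  intro x hx
  refine ⟨?_, fun i hi => ?_⟩
  · rw [hx.1]; simp
  · have := hx.2 i hi
    exact ⟨this.1.le, this.2.le⟩

theorem pbox_subset_squ (v : V) (s : Idx × Fin 3) {δ : ℝ} (h : 0 ≤ δ) :
    pbox v s δ 0 ⊆ squ v s := by
  intro x hx
  refine ⟨?_, fun i hi => ?_⟩
  · have := abs_nonpos_iff.1 hx.1
    linarith
  · have := hx.2 i hi
    constructor <;> linarith [this.1, this.2]

theorem pbox_mono (v : V) (s : Idx × Fin 3) {δ δ' τ τ' : ℝ} (h : δ' ≤ δ) (h' : τ ≤ τ') :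
    pbox v s δ τ ⊆ pbox v s δ' τ' := by
  intro x hx
  refine ⟨hx.1.trans h', fun i hi => ?_⟩
  have := hx.2 i hi
  constructor <;> linarith [this.1, this.2]

theorem isClosed_pbox (v : V) (s : Idx × Fin 3) (δ τ : ℝ) : IsClosed (pbox v s δ τ) := by
  have h1 : IsClosed {x : V | |x s.2 - (v s.2 + s.1.2 s.2 / 2 ^ s.1.1)| ≤ τ} :=
    isClosed_le ((continuous_apply s.2).sub continuous_const).abs continuous_const
  apply h1.inter
  have : {x : V | ∀ i, i ≠ s.2 → v i + s.1.2 i / 2 ^ s.1.1 + δ ≤ x i ∧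
      x i ≤ v i + (s.1.2 i + 1) / 2 ^ s.1.1 - δ} = ⋂ i : Fin 3, ⋂ (_ : i ≠ s.2),
      ({x : V | v i + s.1.2 i / 2 ^ s.1.1 + δ ≤ x i} ∩
      {x : V | x i ≤ v i + (s.1.2 i + 1) / 2 ^ s.1.1 - δ}) := by
    ext x; simp [mem_iInter]
  change IsClosed {x : V | ∀ i, i ≠ s.2 → v i + s.1.2 i / 2 ^ s.1.1 + δ ≤ x i ∧
      x i ≤ v i + (s.1.2 i + 1) / 2 ^ s.1.1 - δ}
  rw [this]
  exact isClosed_iInter fun i => isClosed_iInter fun _ =>
    (isClosed_le continuous_const (continuous_apply i)).inter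
      (isClosed_le (continuous_apply i) continuous_const)

theorem convex_squ (v : V) (s : Idx × Fin 3) : Convex ℝ (squ v s) := by
  intro x hx y hy a b ha hb hab
  refine ⟨?_, fun k hk => ?_⟩
  · simp only [Pi.add_apply, Pi.smul_apply, smul_eq_mul]
    rw [hx.1, hy.1, ← add_mul, hab, one_mul]
  · simp only [Pi.add_apply, Pi.smul_apply, smul_eq_mul]
    have h1 := hx.2 k hk
    have h2 := hy.2 k hk
    have e : ∀ c : ℝ, c = a * c + b * c := fun c => by rw [← add_mul, hab, one_mul]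
    constructor
    · rw [e (v k + (s.1.2 k : ℝ) / 2 ^ s.1.1)]
      exact add_le_add (mul_le_mul_of_nonneg_left h1.1 ha) (mul_le_mul_of_nonneg_left h2.1 hb)
    · rw [e (v k + ((s.1.2 k : ℝ) + 1) / 2 ^ s.1.1)]
      exact add_le_add (mul_le_mul_of_nonneg_left h1.2 ha) (mul_le_mul_of_nonneg_left h2.2 hb)

/-- one-dimensional: the fine interval through a point of the protected interval -/
theorem exists_fine {n k₁ k₀ : ℕ} (hk : 3 ≤ k₁) {v x : ℝ} {z : ℤ}
    (h1 : v + z / 2 ^ n + 2 / 2 ^ (n + k₁) ≤ x) (h2 : x ≤ v + (z + 1) / 2 ^ n - 2 / 2 ^ (n + k₁)) :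
    ∃ w : ℤ, v + w / 2 ^ (n + k₁ + k₀) ≤ x ∧ x ≤ v + (w + 1) / 2 ^ (n + k₁ + k₀) ∧
      v + z / 2 ^ n + 2 / 2 ^ (n + k₁) ≤ v + w / 2 ^ (n + k₁ + k₀) ∧
      v + (w + 1) / 2 ^ (n + k₁ + k₀) ≤ v + (z + 1) / 2 ^ n - 2 / 2 ^ (n + k₁) := by
  obtain ⟨w, hw1, hw2⟩ := exists_fine_cube (v := fun _ => v) (k₀ := k₀) hk
    (z := fun _ => z) (x := fun _ => x) (fun _ => ⟨h1, h2⟩)
  refine ⟨w 0, (hw1 0).1, (hw1 0).2, ?_, ?_⟩
  · have : (fun i => v + (w i : ℝ) / 2 ^ (n + k₁ + k₀)) ∈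
        dyc (fun _ => v) (n + k₁ + k₀) w := by
      intro i
      refine ⟨le_rfl, ?_⟩
      dsimp only
      gcongr
      linarith
    exact (hw2 this 0).1
  · have : (fun i => v + ((w i : ℝ) + 1) / 2 ^ (n + k₁ + k₀)) ∈
        dyc (fun _ => v) (n + k₁ + k₀) w := by
      intro i
      refine ⟨?_, le_rfl⟩
      dsimp only
      gcongr
      linarith
    exact (hw2 this 0).2

/-- the fine square through a point of the protected square -/
theorem exists_fine_squ {v : V} {s : Idx × Fin 3} {k₁ k₀ : ℕ} (hk : 3 ≤ k₁) {x : V}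
    (hx : x ∈ pbox v s (2 / 2 ^ (s.1.1 + k₁)) 0) :
    ∃ f : Idx × Fin 3, f.1.1 = s.1.1 + k₁ + k₀ ∧ f.2 = s.2 ∧ x ∈ squ v f ∧
      squ v f ⊆ pbox v s (2 / 2 ^ (s.1.1 + k₁)) 0 := by
  have key : ∀ i, i ≠ s.2 → ∃ w : ℤ, _ := fun i hi =>
    exists_fine (k₀ := k₀) hk (hx.2 i hi).1 (hx.2 i hi).2
  choose w hw using key
  have hP : ((s.1.2 s.2 * 2 ^ (k₁ + k₀) : ℤ) : ℝ) / 2 ^ (s.1.1 + k₁ + k₀) =
      s.1.2 s.2 / 2 ^ s.1.1 := by
    push_cast
    rw [show s.1.1 + k₁ + k₀ = s.1.1 + (k₁ + k₀) by ring, pow_add 2 s.1.1 (k₁ + k₀)]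
    field_simp
  have hx1 : x s.2 = v s.2 + s.1.2 s.2 / 2 ^ s.1.1 := by
    have := abs_nonpos_iff.1 hx.1
    linarith
  refine ⟨((s.1.1 + k₁ + k₀, fun i => if hi : i = s.2 then s.1.2 s.2 * 2 ^ (k₁ + k₀) else w i hi),
    s.2), rfl, rfl, ⟨?_, ?_⟩, ?_⟩
  · dsimp only
    rw [dif_pos rfl, hP, hx1]
  · intro i hi
    dsimp only at hi ⊢
    rw [dif_neg hi]
    exact ⟨(hw i hi).1, (hw i hi).2.1⟩
  · rintro y ⟨hy1, hy2⟩
    dsimp only at hy1 hy2
    rw [dif_pos rfl, hP] at hy1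
    refine ⟨by rw [hy1]; simp, fun i hi => ?_⟩
    have h := hy2 i hi
    rw [dif_neg hi] at h
    exact ⟨(hw i hi).2.2.1.trans h.1, h.2.trans (hw i hi).2.2.2⟩

theorem pt_mem_squ (v : V) (s : Idx × Fin 3) : pt v s.1.1 s.1.2 ∈ squ v s := by
  refine ⟨rfl, fun k _ => ⟨le_rfl, ?_⟩⟩
  simp only [pt]
  gcongr
  linarith

/-- a fine edge in a square is an edge of a fine square meeting the square -/
theorem edge_of_squ {v : V} {s e : Idx × Fin 3} (he : edge v e ⊆ squ v s) :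
    EdgeOfSq e (e.1, s.2) ∧ (squ v (e.1, s.2) ∩ squ v s).Nonempty := by
  have h1 := he (pt_mem_edge v e)
  have h2 := he (pt_mem_edge' v e)
  have hne : e.2 ≠ s.2 := by
    intro hh
    have h3 := h1.1
    have h4 := h2.1
    rw [← hh] at h3 h4
    simp only [Pi.add_apply, Pi.smul_apply, ev_apply, if_true, smul_eq_mul, mul_one] at h4
    have : (0:ℝ) < 1 / 2 ^ e.1.1 := by positivity
    linarith
  exact ⟨⟨rfl, hne, rfl, rfl, fun j _ _ => Or.inl rfl⟩, pt v e.1.1 e.1.2, pt_mem_squ v (e.1, s.2), h1⟩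

section

variable {Ω : Set V} {v : V} {I : Set Idx} {T : Set (Idx × Fin 3)}

/-- the protected planar square is a protected set -/
theorem prot_union (D : TCx Ω v I T) {p θ M κ : ℝ} {k₁ k₀ : ℕ} (hk : 3 ≤ k₁) {Λ : Set V}
    {P : Finset (Idx × Fin 3)} {A : Idx × Fin 3 → V → V} {L : Idx × Fin 3 → V →L[ℝ] V} {h : V → V}
    (hP : ∀ s ∈ P, PlateHyp p θ M κ k₁ k₀ Λ v I T s (A s) (L s) h) {Z : Set V}
    (hZ : Prot D.K Z) : Prot D.K (Z ∪ ⋃ s ∈ P, pbox v s (2 / 2 ^ (s.1.1 + k₁)) 0) := by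
  -- the fine tile through a point
  have fine : ∀ s ∈ P, ∀ x ∈ pbox v s (2 / 2 ^ (s.1.1 + k₁)) 0, ∃ j, x ∈ D.K.tile j ∧
      D.K.tile j ⊆ pbox v s (2 / 2 ^ (s.1.1 + k₁)) 0 := by
    intro s hs x hx
    obtain ⟨f, hf1, hf2, hf3, hf4⟩ := exists_fine_squ (k₀ := k₀) hk hx
    have hfT : f ∈ T := (hP s hs).fine f hf1 hf2
      ⟨x, hf3, pbox_subset_squ v s (by positivity) hx⟩
    obtain ⟨j, rfl⟩ : f ∈ range D.ψ := D.rangeψ.symm.subset hfT
    exact ⟨j, by rw [D.tile]; exact hf3, by rw [D.tile]; exact hf4⟩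
  have hbd : ∀ j, (D.K.toCx2.bd j).Nonempty := by
    intro j
    have hjT : D.ψ j ∈ T := D.rangeψ.subset (mem_range_self j)
    obtain ⟨i, hi⟩ : ∃ i : Fin 3, i ≠ (D.ψ j).2 := by
      by_cases h0 : (D.ψ j).2 = 0
      · exact ⟨1, by rw [h0]; decide⟩
      · exact ⟨0, Ne.symm h0⟩
    obtain ⟨S, hS⟩ := D.edges ((D.ψ j).1, i) ⟨D.ψ j, hjT, rfl, hi, rfl, rfl, fun _ _ _ => Or.inl rfl⟩
    have h1 := pt_mem_edge v ((D.ψ j).1, i)
    rw [hS] at h1
    obtain ⟨b, hb, h2⟩ := mem_iUnion₂.1 h1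
    rw [← D.arc] at h2
    exact ⟨_, D.K.tile_arc j b ⟨by rw [D.tile]; exact pt_mem_squ v (D.ψ j), h2⟩⟩
  have hconn : ∀ j, IsPreconnected (D.K.tile j) := fun j => by
    rw [D.tile]; exact (convex_squ v (D.ψ j)).isPreconnected
  refine ⟨?_, ?_, ?_, ?_⟩
  · refine union_subset hZ.sub (iUnion₂_subset fun s hs x hx => ?_)
    obtain ⟨j, hj, _⟩ := fine s hs x hx
    exact P073.GB3.Cx3.tile_subset D.K j hj
  · intro x hxΩ hx
    have hcl : IsClosed (⋃ s ∈ P, pbox v s (2 / 2 ^ (s.1.1 + k₁)) 0) :=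
      P.finite_toSet.isClosed_biUnion fun s _ => isClosed_pbox v s _ _
    rw [closure_union, hcl.closure_eq] at hx
    exact hx.imp (hZ.closed x hxΩ) id
  · rintro j z ⟨hz | hz, hzj⟩
    · obtain ⟨S, h1, h2, h3⟩ := hZ.tile j z ⟨hz, hzj⟩
      exact ⟨S, h1, h2.trans (inter_subset_inter_left _ subset_union_left), h3⟩
    · obtain ⟨s, hs, hz⟩ := mem_iUnion₂.1 hz
      obtain ⟨f, hf1, hf2⟩ := fine s hs z hz
      by_cases hjf : f = j
      · subst hjf
        exact ⟨D.K.tile f, hconn f, subset_inter (hf2.trans (subset_union_of_subset_right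
          (subset_biUnion_of_mem (u := fun s : Idx × Fin 3 => pbox v s (2 / 2 ^ (s.1.1 + k₁)) 0)
            (show s ∈ (P : Set (Idx × Fin 3)) from hs)) Z)) subset_rfl, hf1, by
          rw [inter_eq_right.2 (D.K.toCx2.bd_subset f)]; exact hbd f⟩
      · obtain ⟨b, hb⟩ := mem_iUnion.1 (D.K.tile_tile f j hjf ⟨hf1, hzj⟩)
        refine ⟨{z}, isPreconnected_singleton, ?_, rfl, z, rfl, D.K.tile_arc j b ⟨hzj, hb⟩⟩
        rintro _ rfl
        exact ⟨Or.inr (mem_iUnion₂.2 ⟨s, hs, hz⟩), hzj⟩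
  · rintro c z ⟨hz | hz, hzc⟩
    · obtain ⟨S, h1, h2, h3⟩ := hZ.cell c z ⟨hz, hzc⟩
      exact ⟨S, h1, h2.trans (inter_subset_inter_left _ subset_union_left), h3⟩
    · obtain ⟨s, hs, hz⟩ := mem_iUnion₂.1 hz
      obtain ⟨f, hf1, hf2⟩ := fine s hs z hz
      obtain ⟨j, hjc, hzj⟩ := mem_iUnion₂.1 (D.K.cell_tile c f ⟨hzc, hf1⟩)
      by_cases hjf : f = j
      · subst hjf
        refine ⟨D.K.tile f, hconn f, subset_inter (hf2.trans (subset_union_of_subset_right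
          (subset_biUnion_of_mem (u := fun s : Idx × Fin 3 => pbox v s (2 / 2 ^ (s.1.1 + k₁)) 0)
            (show s ∈ (P : Set (Idx × Fin 3)) from hs)) Z))
          (P073.GB3.Cx3.tile_subset_cell D.K hjc), hf1, ?_⟩
        obtain ⟨y, hy⟩ := hbd f
        obtain ⟨b, _, hb⟩ := mem_iUnion₂.1 hy
        exact ⟨y, D.K.toCx2.bd_subset f hy, mem_iUnion.2 ⟨b, hb⟩⟩
      · obtain ⟨b, hb⟩ := mem_iUnion.1 (D.K.tile_tile f j hjf ⟨hf1, hzj⟩)
        refine ⟨{z}, isPreconnected_singleton, ?_, rfl, z, rfl, mem_iUnion.2 ⟨b, hb⟩⟩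
        rintro _ rfl
        exact ⟨Or.inr (mem_iUnion₂.2 ⟨s, hs, hz⟩), hzc⟩

end

end H107

open H107

theorem specPlatesOf : SpecPlatesOf := by
  classical
  intro hPl p θ M hp hθ hM
  obtain ⟨C, hCpos, H⟩ := hPl p θ M hp hθ hM
  refine ⟨C, hCpos, fun k₁ hk₁ => ?_⟩
  obtain ⟨K₀, H⟩ := H k₁ hk₁
  refine ⟨K₀, fun k₀ hk₀ => ?_⟩
  obtain ⟨κ, hκ, H⟩ := H k₀ hk₀
  refine ⟨κ, hκ, ?_⟩
  intro Ω Λ v I T D P A L h hΩ hΛ hI hT hyp hrel hdisj Z hZ hZs hZf
  -- induction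
  have main : ∀ P' ⊆ P, ∃ h' : ConHomeo Ω Λ,
      (∀ s ∈ P', PlateOut p C k₁ v s (A s) h'.toFun) ∧
      (∀ e : Idx × Fin 3, (∃ s' ∈ T, EdgeOfSq e s') →
        (∀ s ∈ P', Disjoint (edge v e) (prel v s (1 / 2 ^ (s.1.1 + k₁)))) →
        ∀ x ∈ edge v e, h'.toFun x = h.toFun x) ∧
      EqOn h'.toFun h.toFun Z ∧
      ∀ s ∈ P, s ∉ P' → PlateHyp p θ M κ k₁ k₀ Λ v I T s (A s) (L s) h'.toFun := by
    intro P'
    induction P' using Finset.induction_on with
    | empty =>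
      intro _
      exact ⟨h, by simp, fun e _ _ x _ => rfl, fun x _ => rfl, fun s hs _ => hyp s hs⟩
    | insert s P' hs ih =>
      intro hsub
      have hsub' : P' ⊆ P := fun a ha => hsub (Finset.mem_insert_of_mem ha)
      have hsP : s ∈ P := hsub (Finset.mem_insert_self s P')
      obtain ⟨h', h1, h2, hEq, h3⟩ := ih hsub'
      have hne : ∀ s' ∈ P', s ≠ s' := by
        rintro s' hs' rfl
        exact hs hs'
      have hpr : ∀ s' ∈ P', pbox v s' (2 / 2 ^ (s'.1.1 + k₁)) 0 ⊆ prel v s' 0 := fun s' _ =>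
        pbox_subset_prel v s' (by positivity)
      have hbig : ∀ s' : Idx × Fin 3, pbox v s' (2 / 2 ^ (s'.1.1 + k₁)) 0 ⊆
          pbox v s' (1 / 2 ^ (s'.1.1 + k₁ + k₀)) (1 / 2 ^ (s'.1.1 + k₁ + k₀)) := fun s' => by
        apply pbox_mono v s' _ (by positivity)
        have h0 : (0:ℝ) < 1 / 2 ^ (s'.1.1 + k₁) := by positivity
        have h1 : (2:ℝ) / 2 ^ (s'.1.1 + k₁) = 2 * (1 / 2 ^ (s'.1.1 + k₁)) := by ring
        have h2 : (1:ℝ) / 2 ^ (s'.1.1 + k₁ + k₀) ≤ 1 / 2 ^ (s'.1.1 + k₁) := by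
          apply one_div_le_one_div_of_le (by positivity)
          exact pow_le_pow_right₀ (by norm_num) (by omega)
        rw [h1]; linarith
      obtain ⟨h'', g1, g2, g3⟩ := H Ω Λ v I T D s (A s) (L s) h' hΩ hΛ hI hT (h3 s hsP hs)
        (Z ∪ ⋃ s' ∈ P', pbox v s' (2 / 2 ^ (s'.1.1 + k₁)) 0)
        (prot_union D hk₁ (fun s' hs' => hyp s' (hsub' hs')) hZ)
        (by
          rw [disjoint_union_left]
          refine ⟨hZs s hsP, ?_⟩
          rw [Set.disjoint_iUnion₂_left]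
          exact fun s' hs' => ((hrel s hsP s' (hsub' hs') (hne s' hs')).mono_right
            (hpr s' hs')).symm)
        (by
          rintro x (hx | hx)
          · rw [hEq hx]; exact hZf s hsP x hx
          · obtain ⟨s', hs', hx⟩ := mem_iUnion₂.1 hx
            rw [(h1 s' hs').box x hx]
            intro hmem
            exact Set.disjoint_left.1 (hdisj s hsP s' (hsub' hs') (hne s' hs')) hmem
              ⟨x, hbig s' hx, rfl⟩)
      -- the new map agrees with the old one on the fine edges in the other plates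
      have hout : ∀ s' ∈ P, s' ≠ s → ∀ e : Idx × Fin 3, e.1.1 = s'.1.1 + k₁ + k₀ →
          edge v e ⊆ squ v s' → ∀ x ∈ edge v e, h''.toFun x = h'.toFun x := by
        intro s' hs' hne' e he hsub'' x hx
        obtain ⟨e1, e2⟩ := edge_of_squ hsub''
        refine (g2 e ⟨_, (hyp s' hs').fine (e.1, s'.2) he rfl e2, e1⟩ x hx).1 fun hxs => ?_
        exact Set.disjoint_left.1 (hrel s' hs' s hsP hne') (hsub'' hx)
          (prel_mono v s (by positivity) hxs)
      refine ⟨h'', ?_, ?_, ?_, ?_⟩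
      · intro s' hs'
        rcases Finset.mem_insert.1 hs' with rfl | hs'
        · exact g1
        · have hs'P := hsub' hs'
          have hne' : s' ≠ s := fun hh => hne s' hs' hh.symm
          constructor
          · intro x hx
            rw [g3 (Or.inr (mem_iUnion₂.2 ⟨s', hs', hx⟩))]
            exact (h1 s' hs').box x hx
          · intro e he hs1 hs2
            have heq : ∀ x ∈ edge v e, h''.toFun x = h'.toFun x := by
              intro x hx
              obtain ⟨e', he', hxe', hsub''⟩ := exists_fine_edge (j := k₀) he hx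
              refine hout s' hs'P hne' e' he' (hsub''.trans ?_) x hxe'
              exact fun y hy => pbox_subset_squ v s' (by positivity) (hs1 hy).1
            obtain ⟨o1, o2⟩ := (h1 s' hs').gap e he hs1 hs2
            refine ⟨fun x hx => ?_, ?_⟩
            · rw [heq x hx]; exact o1 x hx
            · rw [dvar_congr heq]; exact o2
      · intro e he hd x hx
        rw [(g2 e he x hx).1, h2 e he (fun s' hs' => hd s' (Finset.mem_insert_of_mem hs')) x hx]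
        exact fun hxi => Set.disjoint_left.1 (hd s (Finset.mem_insert_self _ _)) hx hxi
      · intro x hx
        rw [g3 (Or.inl hx), hEq hx]
      · intro s₁ hs₁ hs₁'
        have hs₁P' : s₁ ∉ P' := fun hh => hs₁' (Finset.mem_insert_of_mem hh)
        have hne₁ : s₁ ≠ s := fun hh => hs₁' (hh ▸ Finset.mem_insert_self _ _)
        have old := h3 s₁ hs₁ hs₁P'
        refine ⟨old.aff, old.below, old.above, old.lone, old.fine, ?_, ?_, old.inside⟩
        · intro e he hs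
          have heq := hout s₁ hs₁ hne₁ e he hs
          obtain ⟨o1, o2⟩ := old.own e he hs
          refine ⟨fun x hx => ?_, ?_⟩
          · rw [heq x hx]; exact o1 x hx
          · rw [dvar_congr heq]; exact o2
        · intro e he hs x hx
          rcases (g2 e he x hx).2 with hh | hh
          · obtain ⟨x', hx', hxx⟩ := hh
            rw [← hxx]
            exact old.foreign e he hs x' hx'
          · intro hmem
            exact Set.disjoint_left.1 (hdisj s₁ hs₁ s hsP hne₁) hmem hh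
  obtain ⟨h', h1, h2, h3, _⟩ := main P subset_rfl
  exact ⟨h', h1, h2, h3⟩

end P073.Plate
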